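import Mathlib
import Vale.Agent.P040.Defs
import Vale.Agent.P040.Radial

open Vale.Agent.P040

/-- Zarankiewicz's lower bound for drawings of `K_{m,n}` with one class on a circle and
radially monotone edges. -/
theorem Vale.Agent.Results.P040.RadialZarankiewicz.result :
    ∀ (m n : ℕ) (D : RadialDrawing m n),
      (m / 2) * ((m - 1) / 2) * ((n / 2) * ((n - 1) / 2)) ≤ D.crossings.ncard :=
  fun _ _ D => D.crossings_ge
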